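import Vale.Agent.P213.Free.Basic
import Vale.Agent.P213.Nerve.Nerve

/-!
# Ends, edges and triangles in the orientals

Every cell of `ν` of the chains of a finite ordinal has a first and a last vertex, in this order,
and every cell of dimension at most one is a composite of edges.
-/

open CategoryTheory

namespace Vale.Agent.P213.Sanity

open ADC

noncomputable section

variable {m : ℕ}

lemma smOne {P : Type} [PartialOrder P] (f : Fin (0 + 1) → P) : StrictMono f := fun i j h => by
  rw [Fin.eq_zero i, Fin.eq_zero j] at h
  exact absurd h (lt_irrefl _)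

/-- The first vertex weighting of a chain of vertices. -/
def height (m : ℕ) : (Chain (Fin (m + 1)) 0 →₀ ℤ) →ₗ[ℤ] ℤ :=
  onGen fun c => ((c.1 0 : ℕ) : ℤ)

lemma height_el (v : Fin (m + 1)) : height m (el fun _ => v) = ((v : ℕ) : ℤ) := by
  rw [el_of_strictMono (smOne _)]
  exact onGen_single _ _

lemma d_gen_one {P : Type} [PartialOrder P] (e : Chain P 1) :
    (chains P).d 0 ((chains P).gen (k := 1) e) =
      el (fun _ => e.1 1) - el (fun _ => e.1 0) := by
  rw [chains_gen, chains_d_el e.2.monotone, Fin.sum_univ_two]
  have e0 : e.1 ∘ Fin.succ = fun _ => e.1 1 := by funext i; fin_cases i; rfl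
  have e1 : e.1 ∘ (1 : Fin 2).succAbove = fun _ => e.1 0 := by funext i; fin_cases i; rfl
  simp [e0, e1, sub_eq_add_neg]

lemma el_const_apply {P : Type} [PartialOrder P] (v w : P) :
    el (fun _ : Fin 1 => v) (⟨fun _ => w, smOne _⟩ : Chain P 0) =
      (open Classical in if v = w then 1 else 0 : ℤ) := by
  classical
  rw [el_of_strictMono (smOne _), Finsupp.single_apply]
  by_cases h : v = w
  · subst h; simp
  · rw [if_neg h, if_neg]
    intro h'
    exact h (congrFun (congrArg Subtype.val h') 0)

lemma vert_injective {P : Type} [PartialOrder P] {u v : P} (h : vert u = vert v) : u = v := by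
  classical
  have h0 : el (fun _ : Fin 1 => u) = el (fun _ : Fin 1 => v) :=
    congrArg (fun t : Table (chains P) => t.x 0 true) h
  rw [el_of_strictMono (smOne _),
    el_of_strictMono (smOne _)] at h0
  exact congrFun (congrArg Subtype.val (Finsupp.single_left_injective one_ne_zero h0)) 0

/-- Weight is bounded by the increase of height. -/
lemma wt_le_height {p : Chain (Fin (m + 1)) 1 →₀ ℤ} (hp : 0 ≤ p) :
    wt p ≤ height m ((chains (Fin (m + 1))).d 0 p) := by
  rw [d_eq_sum, map_finsuppSum, wt_apply]
  refine Finset.sum_le_sum fun e _ => ?_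
  simp only [map_smul, smul_eq_mul]
  have h1 : ((e.1 0 : ℕ) : ℤ) < (e.1 1 : ℕ) := by
    exact_mod_cast (e.2 (show (0 : Fin 2) < 1 by decide))
  have hh := congrArg (height m) (d_gen_one e)
  rw [map_sub, height_el, height_el] at hh
  refine le_mul_of_one_le_right (hp e) ?_
  exact ((by omega : (1 : ℤ) ≤ ((e.1 1 : ℕ) : ℤ) - (e.1 0 : ℕ))).trans hh.ge
where
  d_eq_sum {p : Chain (Fin (m + 1)) 1 →₀ ℤ} :
      (chains (Fin (m + 1))).d 0 p =
        p.sum fun e v => v • (chains (Fin (m + 1))).d 0 ((chains (Fin (m + 1))).gen (k := 1) e) := by
    conv_lhs => rw [← Finsupp.sum_single p]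
    rw [map_finsuppSum]
    refine Finsupp.sum_congr fun e _ => ?_
    rw [← map_zsmul, gen, Finsupp.smul_single_one]

/-- The first vertex of a cell. -/
def sv (t : Table (oriental m)) : Fin (m + 1) := (exists_face_zero t false).choose

/-- The last vertex of a cell. -/
def tv (t : Table (oriental m)) : Fin (m + 1) := (exists_face_zero t true).choose

lemma face_sv (t : Table (oriental m)) : t.face 0 false = vert (sv t) :=
  (exists_face_zero t false).choose_spec

lemma face_tv (t : Table (oriental m)) : t.face 0 true = vert (tv t) :=
  (exists_face_zero t true).choose_spec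

lemma sv_eq {t : Table (oriental m)} {v : Fin (m + 1)} (h : t.face 0 false = vert v) : sv t = v :=
  vert_injective ((face_sv t).symm.trans h)

lemma tv_eq {t : Table (oriental m)} {v : Fin (m + 1)} (h : t.face 0 true = vert v) : tv t = v :=
  vert_injective ((face_tv t).symm.trans h)

lemma x_zero_false (t : Table (oriental m)) : t.x 0 false = el fun _ => sv t := by
  simpa [vert] using congrArg (fun s : Table (oriental m) => s.x 0 false) (face_sv t)

lemma x_zero_true (t : Table (oriental m)) : t.x 0 true = el fun _ => tv t := by
  simpa [vert] using congrArg (fun s : Table (oriental m) => s.x 0 true) (face_tv t)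

lemma wt_le_sub (t : Table (oriental m)) :
    wt (t.x 1 false) ≤ ((tv t : ℕ) : ℤ) - (sv t : ℕ) := by
  have h := wt_le_height (t.nonneg 1 false)
  rw [t.bdry 0 false, map_sub, x_zero_true, x_zero_false, height_el, height_el] at h
  exact h

lemma sv_le_tv (t : Table (oriental m)) : sv t ≤ tv t := by
  have h := wt_le_sub t
  have h' := wt_nonneg (t.nonneg 1 false)
  exact Fin.le_def.2 (by omega)

/-- A one-dimensional cell of height zero is a vertex. -/
lemma eq_vert_of_sv_eq_tv {t : Table (oriental m)} (ht : Le 1 t) (h : sv t = tv t) :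
    t = vert (sv t) := by
  have h0 : t.x 1 false = 0 := by
    refine wt_eq_zero (t.nonneg 1 false) (le_antisymm ?_ (wt_nonneg (t.nonneg 1 false)))
    have := wt_le_sub t
    rwa [h, sub_self] at this
  refine Table.ext (funext fun k => funext fun s => ?_)
  rcases k with _ | _ | k
  · cases s
    · rw [x_zero_false]; rfl
    · rw [x_zero_true, ← h]; rfl
  · rw [ht.top_eq s false, h0]; rfl
  · rw [ht _ s (by omega)]; rfl

/-- A one-dimensional cell splits off a first edge. -/
lemma exists_split {t : Table (oriental m)} (ht : Le 1 t) (h : sv t ≠ tv t) :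
    ∃ (w : Fin (m + 1)) (hw : sv t ≤ w) (r : Table (oriental m))
      (hc : r.face 0 false = (edge hw).face 0 true),
      Le 1 r ∧ sv t < w ∧ sv r = w ∧ tv r = tv t ∧ t = Table.comp 0 r (edge hw) hc := by
  classical
  set p := t.x 1 false with hp
  have hb : (oriental m).d 0 p = el (fun _ => tv t) - el (fun _ => sv t) := by
    rw [hp, t.bdry 0 false, x_zero_true, x_zero_false]
  let b : Chain (Fin (m + 1)) 0 := ⟨fun _ => sv t, smOne _⟩
  have hneg : (oriental m).d 0 p b < 0 := by
    rw [hb, Finsupp.sub_apply, el_const_apply,
      el_const_apply, if_neg (fun e => h e.symm), if_pos rfl]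
    norm_num
  obtain ⟨e, he, hin⟩ := exists_of_d_neg (K := oriental m) (t.nonneg 1 false) hneg
  have he0 : e.1 0 = sv t := by
    simp only [InBdry, Bool.false_eq_true, if_false] at hin
    rw [d_gen_one, Finsupp.sub_apply, el_const_apply,
      el_const_apply] at hin
    by_contra hne
    rw [if_neg hne] at hin
    split_ifs at hin <;> omega
  have hlt : sv t < e.1 1 := he0 ▸ e.2 (show (0 : Fin 2) < 1 by decide)
  have hel : el (![sv t, e.1 1]) = Finsupp.single e 1 := by
    rw [← el_val e]
    congr 1
    funext i
    fin_cases i
    · exact he0.symm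
    · rfl
  have hq : 0 ≤ p - Finsupp.single e 1 := sub_nonneg.2 (single_le (t.nonneg 1 false) he)
  let r : Table (oriental m) :=
    { x := fun k s => match k with
        | 0 => bif s then el (fun _ => tv t) else el fun _ => e.1 1
        | 1 => p - Finsupp.single e 1
        | _ + 2 => 0
      nonneg := fun k s => by
        rcases k with _ | _ | k
        · cases s <;> exact el_nonneg _
        · exact hq
        · exact le_rfl
      aug := fun s => by cases s <;> exact chains_ε_el _
      bdry := fun k s => by
        rcases k with _ | _ | k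
        · show (oriental m).d 0 (p - Finsupp.single e 1) = _
          rw [map_sub, hb, show Finsupp.single e (1 : ℤ) = (chains (Fin (m + 1))).gen (k := 1) e
            from rfl, d_gen_one, he0]
          simp only [Bool.cond_true, Bool.cond_false]
          abel
        · simp
        · simp
      exists_zero := ⟨2, fun k s hk => by
        obtain ⟨j, rfl⟩ := Nat.exists_eq_add_of_le hk
        rw [Nat.add_comm 2 j]⟩ }
  have hrs : r.face 0 false = vert (e.1 1) := by
    refine Table.ext (funext fun k => funext fun s => ?_)
    rw [Table.face_x]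
    rcases k with _ | k <;> simp [r, vert]
  have hrt : r.face 0 true = vert (tv t) := by
    refine Table.ext (funext fun k => funext fun s => ?_)
    rw [Table.face_x]
    rcases k with _ | k <;> simp [r, vert]
  have hc : r.face 0 false = (edge hlt.le).face 0 true := hrs.trans (tgt_edge hlt.le).symm
  refine ⟨e.1 1, hlt.le, r, hc, ?_, hlt, sv_eq hrs, tv_eq hrt, ?_⟩
  · intro l s hl
    obtain ⟨j, rfl⟩ := Nat.exists_eq_add_of_le hl
    rw [Nat.add_comm, show j + (1 + 1) = j + 2 from rfl]
  · refine Table.ext (funext fun k => funext fun s => ?_)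
    rw [Table.comp_x]
    rcases k with _ | _ | k
    · cases s
      · rw [x_zero_false]; rfl
      · rw [x_zero_true]; rfl
    · rw [ht.top_eq s false]
      simp only [Nat.zero_add, one_ne_zero, if_false, Nat.not_lt_zero]
      show p = (p - Finsupp.single e 1) + el ![sv t, e.1 1]
      rw [hel]
      abel
    · rw [ht _ s (by omega)]
      simp [r, edge]

/-- The triangle on three vertices in increasing order. -/
def triangle {i j k : Fin (m + 1)} (hij : i ≤ j) (hjk : j ≤ k) : Table (oriental m) where
  x l s := match l with
    | 0 => bif s then el fun _ => k else el fun _ => i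
    | 1 => bif s then el ![j, k] + el ![i, j] else el ![i, k]
    | 2 => el ![i, j, k]
    | _ + 3 => 0
  nonneg l s := by
    rcases l with _ | _ | _ | l
    · cases s <;> exact el_nonneg _
    · cases s
      · exact el_nonneg _
      · exact add_nonneg (el_nonneg _) (el_nonneg _)
    · exact el_nonneg _
    · exact le_rfl
  aug s := by cases s <;> exact chains_ε_el _
  bdry l s := by
    rcases l with _ | _ | _ | l
    · have hd : ∀ {u v : Fin (m + 1)} (_ : u ≤ v),
          (oriental m).d 0 (el ![u, v]) = el (fun _ => v) - el fun _ => u := fun {u v} huv =>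
        ((edge huv).bdry 0 true)
      cases s
      · exact hd (hij.trans hjk)
      · show (oriental m).d 0 (el ![j, k] + el ![i, j]) = _
        rw [map_add, hd hjk, hd hij]
        simp only [Bool.cond_true, Bool.cond_false]
        abel
    · have hm : Monotone ![i, j, k] := Fin.monotone_iff_le_succ.2 fun a => by
        fin_cases a
        · simpa using hij
        · simpa using hjk
      show (oriental m).d 1 (el ![i, j, k]) = _
      rw [chains_d_el hm, Fin.sum_univ_three]
      have e0 : ![i, j, k] ∘ Fin.succ = ![j, k] := by funext a; fin_cases a <;> rfl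
      have e1 : ![i, j, k] ∘ (1 : Fin 3).succAbove = ![i, k] := by funext a; fin_cases a <;> rfl
      have e2 : ![i, j, k] ∘ (2 : Fin 3).succAbove = ![i, j] := by funext a; fin_cases a <;> rfl
      simp [e0, e1, e2, sub_eq_add_neg]
      abel
    · simp
    · simp
  exists_zero := ⟨3, fun l s hl => by
    obtain ⟨a, rfl⟩ := Nat.exists_eq_add_of_le hl
    rw [Nat.add_comm 3 a]⟩

lemma edge_composable {i j k : Fin (m + 1)} (hij : i ≤ j) (hjk : j ≤ k) :
    (edge hjk : Table (oriental m)).face 0 false = (edge hij : Table (oriental m)).face 0 true :=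
  (src_edge hjk).trans (tgt_edge hij).symm

lemma triangle_src {i j k : Fin (m + 1)} (hij : i ≤ j) (hjk : j ≤ k) :
    (triangle hij hjk).face 1 false = edge (hij.trans hjk) := by
  refine Table.ext (funext fun l => funext fun s => ?_)
  rw [Table.face_x]
  rcases l with _ | _ | l <;> simp [triangle, edge]

lemma triangle_tgt {i j k : Fin (m + 1)} (hij : i ≤ j) (hjk : j ≤ k) :
    (triangle hij hjk).face 1 true = Table.comp 0 (edge hjk) (edge hij)
      (edge_composable hij hjk) := by
  refine Table.ext (funext fun l => funext fun s => ?_)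
  rw [Table.face_x, Table.comp_x]
  rcases l with _ | _ | l <;> simp [triangle, edge]

lemma edge_refl (v : Fin (m + 1)) : edge (le_refl v) = (vert v : Table (oriental m)) := by
  refine Table.ext (funext fun l => funext fun s => ?_)
  rcases l with _ | _ | l
  · cases s <;> rfl
  · exact el_of_not fun h => lt_irrefl v (h (show (0 : Fin 2) < 1 by decide))
  · rfl

end

end Vale.Agent.P213.Sanity
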