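import Vale.Agent.P213.Basic.OCat
import Mathlib.CategoryTheory.Comma.Arrow
import Mathlib.CategoryTheory.Category.Cat
import Mathlib.Tactic.NormNum

/-!
# A small category as a strict ω-category (an `n`-category for every `n ≥ 1`)

Cells are the morphisms; everything above dimension one is an identity.
-/

open CategoryTheory

namespace Vale.Agent.P213.Sanity

variable {C D : Type} [SmallCategory C] [SmallCategory D]

/-- The identity of an object, as a cell. -/
abbrev idArr (x : C) : Arrow C := Arrow.mk (𝟙 x)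

lemma left_eq_right {a b : Arrow C} (h : idArr a.left = idArr b.right) : a.left = b.right :=
  congrArg (fun t : Arrow C => t.left) h

lemma mk_comp_congr {a a' b b' : Arrow C} (ha : a = a') (hb : b = b') (h : b.right = a.left)
    (h' : b'.right = a'.left) :
    Arrow.mk (b.hom ≫ eqToHom h ≫ a.hom) = Arrow.mk (b'.hom ≫ eqToHom h' ≫ a'.hom) := by
  subst ha; subst hb; rfl

/-- A small category as a strict ω-category. -/
@[simps -isSimp]
def ofCat (C : Type) [SmallCategory C] : OCat where
  Cell := Arrow C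
  src i a := if i = 0 then idArr a.left else a
  tgt i a := if i = 0 then idArr a.right else a
  comp i a b h :=
    if hi : i = 0 then
      Arrow.mk (b.hom ≫ eqToHom (left_eq_right (by simpa [hi] using h)).symm ≫ a.hom)
    else a
  src_src i j a := by
    rcases Nat.eq_zero_or_pos i with rfl | hi <;> rcases Nat.eq_zero_or_pos j with rfl | hj <;>
      simp_all [Nat.pos_iff_ne_zero]
  tgt_tgt i j a := by
    rcases Nat.eq_zero_or_pos i with rfl | hi <;> rcases Nat.eq_zero_or_pos j with rfl | hj <;>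
      simp_all [Nat.pos_iff_ne_zero]
  src_tgt_lt i j a h := by simp [show j ≠ 0 by omega]
  src_tgt_ge i j a h := by
    by_cases hi : i = 0
    · simp [hi, show j = 0 by omega]
    · simp [hi]
  tgt_src_lt i j a h := by simp [show j ≠ 0 by omega]
  tgt_src_ge i j a h := by
    by_cases hi : i = 0
    · simp [hi, show j = 0 by omega]
    · simp [hi]
  exists_dim a := ⟨1, rfl⟩
  comp_unit_right i a h := by
    by_cases hi : i = 0
    · subst hi
      simp only [dite_true]
      exact (Arrow.mk_eq_mk_iff _ _).2 ⟨rfl, rfl, by simp⟩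
    · simp [hi]
  comp_unit_left i a h := by
    by_cases hi : i = 0
    · subst hi
      simp only [dite_true]
      exact (Arrow.mk_eq_mk_iff _ _).2 ⟨rfl, rfl, by simp⟩
    · simp [hi]
  src_comp_le i j a b h hj := by
    by_cases hi : i = 0
    · simp [hi, show j = 0 by omega]
    · simp only [hi, if_false] at h
      subst h
      simp [hi]
  tgt_comp_le i j a b h hj := by
    by_cases hi : i = 0
    · simp [hi, show j = 0 by omega]
    · simp [hi]
  src_comp_gt i j a b h h' hj := by
    have hj0 : j ≠ 0 := by omega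
    by_cases hi : i = 0
    · simp only [dif_pos hi, if_neg hj0]
      exact mk_comp_congr (if_neg hj0).symm (if_neg hj0).symm _ _
    · simp [hi, hj0]
  tgt_comp_gt i j a b h h' hj := by
    have hj0 : j ≠ 0 := by omega
    by_cases hi : i = 0
    · simp only [dif_pos hi, if_neg hj0]
      exact mk_comp_congr (if_neg hj0).symm (if_neg hj0).symm _ _
    · simp [hi, hj0]
  assoc i a b c h₁ h₂ h₃ h₄ := by
    by_cases hi : i = 0
    · subst hi
      simp
    · simp [hi]
  interchange i j a b c d h₁ h₂ h₃ h₄ h₅ h₆ hij := by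
    have hj0 : j ≠ 0 := by omega
    by_cases hi : i = 0
    · simp only [dif_pos hi, dif_neg hj0]
      exact mk_comp_congr (dif_neg hj0) (dif_neg hj0) _ _
    · simp [hi, hj0]

lemma ofCat_src_zero (a : Arrow C) : (ofCat C).src 0 a = idArr a.left := rfl

lemma ofCat_tgt_zero (a : Arrow C) : (ofCat C).tgt 0 a = idArr a.right := rfl

lemma ofCat_src_pos {i : ℕ} (hi : i ≠ 0) (a : Arrow C) : (ofCat C).src i a = a := if_neg hi

lemma ofCat_tgt_pos {i : ℕ} (hi : i ≠ 0) (a : Arrow C) : (ofCat C).tgt i a = a := if_neg hi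

lemma ofCat_comp_zero (a b : Arrow C) (h : (ofCat C).src 0 a = (ofCat C).tgt 0 b) :
    (ofCat C).comp 0 a b h = Arrow.mk (b.hom ≫ eqToHom (left_eq_right h).symm ≫ a.hom) := rfl

lemma ofCat_comp_pos {i : ℕ} (hi : i ≠ 0) (a b : Arrow C)
    (h : (ofCat C).src i a = (ofCat C).tgt i b) : (ofCat C).comp i a b h = a := dif_neg hi

/-- For `n ≥ 1` a category is an `n`-category. -/
lemma dimLE_ofCat {n : ℕ∞} (hn : 1 ≤ n) : OCat.DimLE n (ofCat C) := fun k a hk => by
  refine ofCat_src_pos ?_ a
  rintro rfl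
  exact absurd (hn.trans hk) (by simp)

lemma map_mk_comp (F : C ⥤ D) (a b : Arrow C) (h : b.right = a.left)
    (h' : (F.mapArrow.obj b).right = (F.mapArrow.obj a).left) :
    F.mapArrow.obj (Arrow.mk (b.hom ≫ eqToHom h ≫ a.hom)) =
      Arrow.mk ((F.mapArrow.obj b).hom ≫ eqToHom h' ≫ (F.mapArrow.obj a).hom) := by
  obtain ⟨a₁, a₂, f⟩ := a
  obtain ⟨b₁, b₂, g⟩ := b
  change b₂ = a₁ at h
  subst h
  refine (Arrow.mk_eq_mk_iff _ _).2 ⟨rfl, rfl, ?_⟩
  show F.map (g ≫ 𝟙 _ ≫ f) = 𝟙 _ ≫ (F.map g ≫ 𝟙 _ ≫ F.map f) ≫ 𝟙 _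
  simp

/-- A functor as a strict ω-functor. -/
def ofCatMap (F : C ⥤ D) : ofCat C ⟶ ofCat D where
  map a := F.mapArrow.obj a
  map_src i a := by
    by_cases hi : i = 0
    · subst hi
      show F.mapArrow.obj (idArr (Comma.left a)) = idArr (F.obj (Comma.left a))
      exact (Arrow.mk_eq_mk_iff _ _).2 ⟨rfl, rfl, by simp⟩
    · exact (congrArg F.mapArrow.obj (ofCat_src_pos hi a)).trans (ofCat_src_pos hi _).symm
  map_tgt i a := by
    by_cases hi : i = 0
    · subst hi
      show F.mapArrow.obj (idArr (Comma.right a)) = idArr (F.obj (Comma.right a))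
      exact (Arrow.mk_eq_mk_iff _ _).2 ⟨rfl, rfl, by simp⟩
    · exact (congrArg F.mapArrow.obj (ofCat_tgt_pos hi a)).trans (ofCat_tgt_pos hi _).symm
  map_comp i a b h h' := by
    by_cases hi : i = 0
    · subst hi
      refine (congrArg F.mapArrow.obj (ofCat_comp_zero a b h)).trans
        (Eq.trans ?_ (ofCat_comp_zero _ _ h').symm)
      exact map_mk_comp F a b _ _
    · exact (congrArg F.mapArrow.obj (ofCat_comp_pos hi a b h)).trans
        (ofCat_comp_pos hi _ _ h').symm

/-- Small categories as ω-categories. -/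
def ofCatFunctor : Cat.{0, 0} ⥤ OCat where
  obj C := ofCat C
  map F := ofCatMap F.toFunctor
  map_id _ := rfl
  map_comp _ _ := rfl

/-- Small categories as `n`-categories, `n ≥ 1`. -/
def ofCatFunctorN {n : ℕ∞} (hn : 1 ≤ n) : Cat.{0, 0} ⥤ NCat n :=
  (OCat.DimLE n).lift ofCatFunctor fun _ => dimLE_ofCat hn

end Vale.Agent.P213.Sanity
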