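import Mathlib.AlgebraicTopology.SimplicialSet.Nerve
import Vale.Agent.P213.Sanity.Ends
import Vale.Agent.P213.Sanity.OfCat

/-!
# The Street nerve of a category is its nerve

Functors from the `m`-th oriental to a category correspond to functors from the ordinal `[m]`,
naturally; hence `streetNerve (ofCat C) ≅ nerve C` naturally in the small category `C`, and on
categories the nerve of `n`-categories is Mathlib's nerve, for every `n ≥ 1`.
-/

open CategoryTheory Opposite

namespace Vale.Agent.P213.Sanity

open ADC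

noncomputable section

variable {C D : Type} [SmallCategory C] [SmallCategory D] {m : ℕ}

lemma arrow_congr {a b : Arrow C} (h : a = b) {x y : C} (p : x = a.left) (q : a.right = y)
    (p' : x = b.left) (q' : b.right = y) :
    eqToHom p ≫ a.hom ≫ eqToHom q = eqToHom p' ≫ b.hom ≫ eqToHom q' := by
  subst h; rfl

lemma mk_conj (a : Arrow C) {x y : C} (p : x = a.left) (q : a.right = y) :
    Arrow.mk (eqToHom p ≫ a.hom ≫ eqToHom q) = a := by
  subst p; subst q
  simp

/-- The image of `u ≤ v` under a functor on a preorder, as a cell. -/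
def arr (F : Fin (m + 1) ⥤ C) (u v : Fin (m + 1)) (h : u ≤ v) : Arrow C :=
  Arrow.mk (F.map (homOfLE h))

lemma arr_congr (F : Fin (m + 1) ⥤ C) {u v u' v' : Fin (m + 1)} (hu : u = u') (hv : v = v')
    (h : u ≤ v) (h' : u' ≤ v') : arr F u v h = arr F u' v' h' := by
  subst hu; subst hv; rfl

lemma arr_refl (F : Fin (m + 1) ⥤ C) (u : Fin (m + 1)) (h : u ≤ u) :
    arr F u u h = idArr (F.obj u) := by
  show Arrow.mk (F.map (homOfLE h)) = Arrow.mk (𝟙 _)
  rw [show homOfLE h = 𝟙 u from Subsingleton.elim _ _, F.map_id]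

lemma comp_arr (F : Fin (m + 1) ⥤ C) {u w v : Fin (m + 1)} (h₁ : u ≤ w) (h₂ : w ≤ v)
    (h : (ofCat C).src 0 (arr F w v h₂) = (ofCat C).tgt 0 (arr F u w h₁)) :
    (ofCat C).comp 0 (arr F w v h₂) (arr F u w h₁) h = arr F u v (h₁.trans h₂) := by
  refine (ofCat_comp_zero _ _ h).trans ?_
  show Arrow.mk (F.map (homOfLE h₁) ≫ 𝟙 _ ≫ F.map (homOfLE h₂)) = _
  rw [Category.id_comp, ← F.map_comp]
  rfl

lemma comp_congr {a a' b b' : Arrow C} (ha : a = a') (hb : b = b')
    (h : (ofCat C).src 0 a = (ofCat C).tgt 0 b) :
    ∃ h', (ofCat C).comp 0 a b h = (ofCat C).comp 0 a' b' h' := by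
  subst ha; subst hb; exact ⟨h, rfl⟩

/-! ### Ends of faces and composites -/

lemma face_face_zero (t : Table (oriental m)) {i : ℕ} (hi : 0 < i) (e e' : Bool) :
    (t.face i e).face 0 e' = t.face 0 e' := by
  cases e <;> cases e'
  · exact ((nu (oriental m)).src_src 0 i t).trans (by rw [Nat.zero_min]; rfl)
  · exact (nu (oriental m)).tgt_src_lt 0 i t hi
  · exact (nu (oriental m)).src_tgt_lt 0 i t hi
  · exact ((nu (oriental m)).tgt_tgt 0 i t).trans (by rw [Nat.zero_min]; rfl)

lemma sv_face {i : ℕ} (hi : 0 < i) (t : Table (oriental m)) (e : Bool) :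
    sv (t.face i e) = sv t :=
  sv_eq ((face_face_zero t hi e false).trans (face_sv t))

lemma tv_face {i : ℕ} (hi : 0 < i) (t : Table (oriental m)) (e : Bool) :
    tv (t.face i e) = tv t :=
  tv_eq ((face_face_zero t hi e true).trans (face_tv t))

lemma sv_vert (v : Fin (m + 1)) : sv (vert v : Table (oriental m)) = v := sv_eq (face_vert v 0 false)

lemma tv_vert (v : Fin (m + 1)) : tv (vert v : Table (oriental m)) = v := tv_eq (face_vert v 0 true)

lemma sv_edge {u v : Fin (m + 1)} (h : u ≤ v) : sv (edge h : Table (oriental m)) = u :=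
  sv_eq (src_edge h)

lemma tv_edge {u v : Fin (m + 1)} (h : u ≤ v) : tv (edge h : Table (oriental m)) = v :=
  tv_eq (tgt_edge h)

lemma sv_comp (i : ℕ) (a b : Table (oriental m)) (h : a.face i false = b.face i true) :
    sv (Table.comp i a b h) = sv b :=
  sv_eq (((nu (oriental m)).src_comp_le i 0 a b h (Nat.zero_le i)).trans (face_sv b))

lemma tv_comp (i : ℕ) (a b : Table (oriental m)) (h : a.face i false = b.face i true) :
    tv (Table.comp i a b h) = tv a :=
  tv_eq (((nu (oriental m)).tgt_comp_le i 0 a b h (Nat.zero_le i)).trans (face_tv a))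

/-! ### From functors on `[m]` to functors on the oriental -/

/-- The functor on the oriental attached to a functor on `[m]`. -/
def bwd (F : Fin (m + 1) ⥤ C) : nu (oriental m) ⟶ ofCat C where
  map t := arr F (sv t) (tv t) (sv_le_tv t)
  map_src i t := by
    rcases Nat.eq_zero_or_pos i with rfl | hi
    · refine (arr_congr F (sv_eq ((face_sv t).symm ▸ face_vert _ _ _) :
        sv (t.face 0 false) = sv t) (tv_eq ((face_sv t).symm ▸ face_vert _ _ _)) _ le_rfl).trans ?_
      exact arr_refl F (sv t) le_rfl
    · exact (arr_congr F (sv_face hi t false) (tv_face hi t false) _ _).trans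
        (ofCat_src_pos hi.ne' _).symm
  map_tgt i t := by
    rcases Nat.eq_zero_or_pos i with rfl | hi
    · refine (arr_congr F (sv_eq ((face_tv t).symm ▸ face_vert _ _ _) :
        sv (t.face 0 true) = tv t) (tv_eq ((face_tv t).symm ▸ face_vert _ _ _)) _ le_rfl).trans ?_
      exact arr_refl F (tv t) le_rfl
    · exact (arr_congr F (sv_face hi t true) (tv_face hi t true) _ _).trans
        (ofCat_tgt_pos hi.ne' _).symm
  map_comp i a b h h' := by
    rcases Nat.eq_zero_or_pos i with rfl | hi
    · have e : sv a = tv b := vert_injective (((face_sv a).symm.trans h).trans (face_tv b))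
      obtain ⟨h'', hc⟩ := comp_congr rfl
        (arr_congr F rfl e.symm (sv_le_tv b) ((sv_le_tv b).trans e.symm.le)) h'
      refine (arr_congr F (sv_comp 0 a b h) (tv_comp 0 a b h) _
        (((sv_le_tv b).trans e.symm.le).trans (sv_le_tv a))).trans ?_
      exact (hc.trans (comp_arr F _ _ h'')).symm
    · refine (arr_congr F ((sv_comp i a b h).trans ?_) (tv_comp i a b h) _ _).trans
        (ofCat_comp_pos hi.ne' _ _ h').symm
      rw [← sv_face hi a false, ← sv_face hi b true]
      exact congrArg sv h.symm

lemma bwd_map (F : Fin (m + 1) ⥤ C) (t : Table (oriental m)) :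
    (bwd F).map t = arr F (sv t) (tv t) (sv_le_tv t) := rfl

lemma bwd_injective : Function.Injective (bwd (C := C) (m := m)) := fun F G h => by
  have h' : ∀ {u v : Fin (m + 1)} (huv : u ≤ v), arr F u v huv = arr G u v huv := fun {u v} huv =>
    (arr_congr F (sv_edge huv).symm (tv_edge huv).symm huv (sv_le_tv _)).trans
      ((congrArg (fun x : nu (oriental m) ⟶ ofCat C => (x.map (edge huv) : Arrow C)) h).trans
        (arr_congr G (sv_edge huv) (tv_edge huv) (sv_le_tv _) huv))
  have hobj : ∀ u : Fin (m + 1), F.obj u = G.obj u := fun u =>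
    congrArg (fun a : Arrow C => Comma.left a) (h' (le_refl u))
  refine CategoryTheory.Functor.ext hobj fun u v f => ?_
  exact ((Arrow.mk_eq_mk_iff _ _).1 (h' (leOfHom f))).2.2

/-! ### From functors on the oriental to functors on `[m]` -/

variable (x : nu (oriental m) ⟶ ofCat C)

/-- The image of a vertex. -/
def vobj (i : Fin (m + 1)) : C := Comma.left (x.map (vert i) : Arrow C)

lemma map_vert_eq (i : Fin (m + 1)) : (x.map (vert i) : Arrow C) = idArr (vobj x i) :=
  (congrArg x.map (face_vert i 0 false)).symm.trans (x.map_src 0 (vert i))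

lemma left_map (t : Table (oriental m)) :
    vobj x (sv t) = Comma.left (x.map t : Arrow C) :=
  have h : (x.map (vert (sv t)) : Arrow C) = idArr (Comma.left (x.map t : Arrow C)) :=
    (congrArg x.map (face_sv t)).symm.trans (x.map_src 0 t)
  (congrArg (fun a : Arrow C => Comma.left a) h :)

lemma right_map (t : Table (oriental m)) :
    Comma.right (x.map t : Arrow C) = vobj x (tv t) :=
  (congrArg (fun a : Arrow C => a.left)
    ((congrArg x.map (face_tv t)).symm.trans (x.map_tgt 0 t))).symm

lemma left_map' {t : Table (oriental m)} {u : Fin (m + 1)} (hu : sv t = u) :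
    vobj x u = Comma.left (x.map t : Arrow C) := hu ▸ left_map x t

lemma right_map' {t : Table (oriental m)} {v : Fin (m + 1)} (hv : tv t = v) :
    Comma.right (x.map t : Arrow C) = vobj x v := hv ▸ right_map x t

/-- The morphism given by a cell with prescribed ends. -/
def homOf (t : Table (oriental m)) {u v : Fin (m + 1)} (hu : sv t = u) (hv : tv t = v) :
    vobj x u ⟶ vobj x v :=
  eqToHom (left_map' x hu) ≫ Comma.hom (x.map t : Arrow C) ≫ eqToHom (right_map' x hv)

lemma homOf_congr {t t' : Table (oriental m)} (h : x.map t = x.map t') {u v : Fin (m + 1)}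
    (hu : sv t = u) (hv : tv t = v) (hu' : sv t' = u) (hv' : tv t' = v) :
    homOf x t hu hv = homOf x t' hu' hv' :=
  arrow_congr h _ _ _ _

lemma mk_homOf (t : Table (oriental m)) {u v : Fin (m + 1)} (hu : sv t = u) (hv : tv t = v) :
    Arrow.mk (homOf x t hu hv) = x.map t :=
  mk_conj (x.map t : Arrow C) _ _

lemma map_face_one (t : Table (oriental m)) (e : Bool) : x.map (t.face 1 e) = x.map t := by
  cases e
  · exact (x.map_src 1 t).trans (ofCat_src_pos one_ne_zero _)
  · exact (x.map_tgt 1 t).trans (ofCat_tgt_pos one_ne_zero _)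

lemma homOf_comp {a b : Table (oriental m)} (h : a.face 0 false = b.face 0 true)
    {u w v : Fin (m + 1)} (hub : sv b = u) (hwb : tv b = w) (hwa : sv a = w) (hva : tv a = v)
    (hu : sv (Table.comp 0 a b h) = u) (hv : tv (Table.comp 0 a b h) = v) :
    homOf x (Table.comp 0 a b h) hu hv = homOf x b hub hwb ≫ homOf x a hwa hva := by
  have hc : x.map (Table.comp 0 a b h) = Arrow.mk (Comma.hom (x.map b : Arrow C) ≫
      eqToHom ((right_map' x hwb).trans (left_map' x hwa)) ≫ Comma.hom (x.map a : Arrow C)) :=
    (x.map_comp 0 a b h (OCat.Hom.composable x h)).trans (ofCat_comp_zero _ _ _)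
  refine (arrow_congr hc (left_map' x hu) (right_map' x hv) (left_map' x hub)
    (right_map' x hva)).trans ?_
  simp [homOf]

/-- The functor on `[m]` attached to a functor on the oriental. -/
def fwd : Fin (m + 1) ⥤ C where
  obj := vobj x
  map {u v} f := homOf x (edge (leOfHom f)) (sv_edge _) (tv_edge _)
  map_id u := by
    refine (homOf_congr x (congrArg x.map (edge_refl u)) _ _ (sv_vert u) (tv_vert u)).trans ?_
    refine (arrow_congr (map_vert_eq x u) (left_map' x (sv_vert u)) (right_map' x (tv_vert u))
      rfl rfl).trans ?_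
    simp
  map_comp {u w v} f g := by
    have huw := leOfHom f
    have hwv := leOfHom g
    refine Eq.trans (homOf_congr x ?_ _ _ ((sv_comp 0 _ _ _).trans (sv_edge huw))
      ((tv_comp 0 _ _ _).trans (tv_edge hwv)))
      (homOf_comp x (edge_composable huw hwv) _ _ _ _ _ _)
    calc x.map (edge (huw.trans hwv))
        = x.map ((triangle huw hwv).face 1 false) := congrArg x.map (triangle_src huw hwv).symm
      _ = x.map (triangle huw hwv) := map_face_one x _ false
      _ = x.map ((triangle huw hwv).face 1 true) := (map_face_one x _ true).symm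
      _ = _ := congrArg x.map (triangle_tgt huw hwv)

lemma map_edge {u v : Fin (m + 1)} (h : u ≤ v) : x.map (edge h) = arr (fwd x) u v h :=
  (mk_homOf x (edge h) (sv_edge h) (tv_edge h)).symm

lemma map_eq_arr_of_le_one : ∀ (d : ℕ) (t : Table (oriental m)), Le 1 t →
    (tv t : ℕ) - (sv t : ℕ) ≤ d → x.map t = arr (fwd x) (sv t) (tv t) (sv_le_tv t) := by
  intro d
  induction d using Nat.strong_induction_on with
  | _ d ih =>
    intro t ht hd
    by_cases h : sv t = tv t
    · refine (congrArg x.map (eq_vert_of_sv_eq_tv ht h)).trans ?_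
      refine (map_vert_eq x (sv t)).trans ?_
      exact (arr_refl (fwd x) (sv t) le_rfl).symm.trans (arr_congr _ rfl h _ _)
    · obtain ⟨w, hw, r, hc, hr, hlt, hsr, htr, ht'⟩ := exists_split ht h
      have hwv : w ≤ tv t := hsr ▸ htr ▸ sv_le_tv r
      have hlt' : (sv t : ℕ) < w := hlt
      have hwv' : (w : ℕ) ≤ tv t := hwv
      have hrr : x.map r = arr (fwd x) w (tv t) hwv :=
        (ih ((tv t : ℕ) - w) (by omega) r hr (by rw [hsr, htr])).trans
          (arr_congr _ hsr htr _ _)
      obtain ⟨h'', e⟩ := comp_congr hrr (map_edge x hw) (OCat.Hom.composable x hc)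
      exact (congrArg x.map ht').trans
        ((x.map_comp 0 r (edge hw) hc (OCat.Hom.composable x hc)).trans
          (e.trans (comp_arr (fwd x) hw hwv h'')))

/-- A functor on the oriental is determined by its functor on `[m]`. -/
theorem bwd_fwd : bwd (fwd x) = x :=
  OCat.hom_ext fun t => by
    refine Eq.trans ?_ (map_face_one x t false)
    refine Eq.trans ?_ (map_eq_arr_of_le_one x _ _ (le_face t 1 false) le_rfl).symm
    exact arr_congr _ (sv_face Nat.one_pos t false).symm (tv_face Nat.one_pos t false).symm _ _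

/-- Functors on the oriental are functors on `[m]`. -/
def orientalEquiv : (Fin (m + 1) ⥤ C) ≃ (nu (oriental m) ⟶ ofCat C) :=
  Equiv.ofBijective bwd ⟨bwd_injective, fun x => ⟨fwd x, bwd_fwd x⟩⟩

/-! ### The nerves -/

lemma sv_map {k : ℕ} (f : Fin (k + 1) →o Fin (m + 1)) (t : Table (oriental k)) :
    sv (Table.map (chainsMap f) t) = f (sv t) :=
  sv_eq (by rw [← Table.map_face, face_sv, ADC.map_vert])

lemma tv_map {k : ℕ} (f : Fin (k + 1) →o Fin (m + 1)) (t : Table (oriental k)) :
    tv (Table.map (chainsMap f) t) = f (tv t) :=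
  tv_eq (by rw [← Table.map_face, face_tv, ADC.map_vert])

/-- The comparison from the nerve to the Street nerve. -/
def toStreet (E : Type) [SmallCategory E] : nerve E ≅ streetNerve.obj (ofCat E) :=
  NatIso.ofComponents
    (fun n => ((orientalEquiv (C := E) (m := n.unop.len)).trans Equiv.ulift.{0}.symm).toIso)
    (fun {n k} φ => by
      refine ConcreteCategory.hom_ext _ _ fun F => simplex_ext (OCat.hom_ext fun t => ?_)
      exact (arr_congr F (sv_map φ.unop.toOrderHom t).symm (tv_map φ.unop.toOrderHom t).symm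
        (φ.unop.toOrderHom.monotone (sv_le_tv t)) (sv_le_tv _)))

/-- The Street nerve of a small category is its nerve, naturally. -/
def streetNerveIsoNerve : ofCatFunctor ⋙ streetNerve ≅ CategoryTheory.nerveFunctor.{0, 0} :=
  (NatIso.ofComponents (F := CategoryTheory.nerveFunctor.{0, 0})
    (G := ofCatFunctor ⋙ streetNerve)
    (fun (C : Cat.{0, 0}) => toStreet C) fun {C D} F => by
    refine NatTrans.ext (funext fun n => ConcreteCategory.hom_ext _ _ fun G =>
      simplex_ext (OCat.hom_ext fun t => ?_))
    rfl).symm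

/-- For `n ≥ 1` the nerve of `n`-categories restricts to the nerve of categories. -/
def nCatNerveIsoNerve {n : ℕ∞} (hn : 1 ≤ n) :
    ofCatFunctorN hn ⋙ NCat.nerveFunctor n ≅ CategoryTheory.nerveFunctor.{0, 0} :=
  streetNerveIsoNerve

/-- A 2-simplex of the Street nerve carries a 2-cell from its long edge to the composite of the
two short ones (all cells are images of the standard ones). -/
theorem exists_triangle (X : OCat) (y : nu (oriental 2) ⟶ X) :
    ∃ (a : X.Cell) (h : X.src 0 (y.map (edge (show (1 : Fin 3) ≤ 2 by decide))) =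
        X.tgt 0 (y.map (edge (show (0 : Fin 3) ≤ 1 by decide)))), X.src 1 a = y.map (edge (show (0 : Fin 3) ≤ 2 by decide)) ∧
      X.tgt 1 a = X.comp 0 (y.map (edge (show (1 : Fin 3) ≤ 2 by decide)))
        (y.map (edge (show (0 : Fin 3) ≤ 1 by decide))) h :=
  ⟨y.map (triangle (show (0 : Fin 3) ≤ 1 by decide) (show (1 : Fin 3) ≤ 2 by decide)),
    OCat.Hom.composable y (edge_composable (show (0 : Fin 3) ≤ 1 by decide)
      (show (1 : Fin 3) ≤ 2 by decide)),
    (y.map_src 1 _).symm.trans (congrArg y.map (triangle_src _ _)),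
    (y.map_tgt 1 _).symm.trans ((congrArg y.map (triangle_tgt _ _)).trans
      (y.map_comp 0 (edge (show (1 : Fin 3) ≤ 2 by decide)) (edge (show (0 : Fin 3) ≤ 1 by decide))
        (edge_composable _ _) _))⟩

end

end Vale.Agent.P213.Sanity
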