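import Vale.Agent.P213.WE.KanTarget
import Mathlib.AlgebraicTopology.SimplicialSet.Horn

/-!
# Sanity checks on the definition of weak homotopy equivalences
-/

open CategoryTheory Limits Simplicial HomotopicalAlgebra SSet.modelCategoryQuillen

namespace Vale.Agent.P213.Sanity

/-- Between Kan complexes the weak equivalences are the homotopy equivalences. -/
theorem isWE_iff_homotopyEquiv {X Y : SSet.{0}} [SSet.KanComplex X] [SSet.KanComplex Y]
    (f : X ⟶ Y) : IsWE f ↔ ∃ g : Y ⟶ X, Htpc (f ≫ g) (𝟙 X) ∧ Htpc (g ≫ f) (𝟙 Y) := by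
  constructor
  · intro h
    obtain ⟨g, hg⟩ := (h X inferInstance).1 (𝟙 X)
    refine ⟨g, htpcEqv_iff.1 hg, htpcEqv_iff.1 ((h Y inferInstance).2 _ _ ?_)⟩
    simpa using hg.postcomp f
  · rintro ⟨g, h₁, h₂⟩
    exact IsWE.of_htpc_inverse g (.of_htpc h₁) (.of_htpc h₂)

/-- Not every map is a weak equivalence. -/
theorem not_isWE_of_isEmpty {X Y : SSet.{0}} (f : X ⟶ Y) (hX : ∀ m, IsEmpty (X.obj m))
    (y : Y _⦋0⦌) : ¬ IsWE f := by
  intro h
  have : SSet.KanComplex X := by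
    constructor
    intro A B i hi
    simp only [SSet.modelCategoryQuillen.J, MorphismProperty.iSup_iff] at hi
    obtain ⟨n, ⟨k⟩⟩ := hi
    refine ⟨fun {a b} sq => ((hX _).false (a.app (Opposite.op ⦋0⦌)
      ⟨SSet.stdSimplex.obj₀Equiv.symm k, ?_⟩)).elim⟩
    rw [SSet.mem_horn_iff_notMem_range]
    obtain ⟨j, hj⟩ := exists_ne k
    exact ⟨j, hj, fun ⟨t, ht⟩ => hj ht.symm⟩
  obtain ⟨b, -⟩ := (h X this).1 (𝟙 X)
  exact (hX _).false (b.app _ y)

end Vale.Agent.P213.Sanity
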