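import Vale.Agent.P213.Main.Defs
import Vale.Agent.P213.Nerve.Nerve
import Vale.Agent.P213.Nerve.PosCat
import Vale.Agent.P213.Nerve.Support
import Vale.Agent.P213.Glue.PosetNerve
import Vale.Agent.P213.WE.HtpcBasic
import Mathlib.AlgebraicTopology.SimplicialSet.PiZero

/-!
# Non-vacuity of the weak equivalences

A weak homotopy equivalence is bijective on connected components; so `∅ ⟶ point` and
`two points ⟶ point` are none. The functor from the arrow category to the point is a weak
equivalence of `n`-categories which is not an isomorphism.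
-/

open CategoryTheory MonoidalCategory CartesianMonoidalCategory Opposite
open scoped Simplicial SSet.modelCategoryQuillen

namespace Vale.Agent.P213.Sanity

noncomputable section

/-- A set as a constant simplicial set. -/
abbrev cst (T : Type) : SSet.{0} := (Functor.const SimplexCategoryᵒᵖ).obj T

/-- A constant simplicial set is a Kan complex. -/
theorem kan_cst (T : Type) : SSet.KanComplex (cst T) := by
  rw [SSet.KanComplex.iff]
  intro n i f hf
  obtain ⟨j₀, hj₀⟩ : ∃ j₀ : Fin (n + 2), j₀ ≠ i := exists_ne i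
  let t : ∀ (j : Fin (n + 2)), j ≠ i → T := fun j hj => SSet.yonedaEquiv (f j hj)
  have ht : ∀ j hj, t j hj = t j₀ hj₀ := by
    intro j hj
    obtain _ | n := n
    · obtain rfl : j = j₀ := by
        fin_cases i <;> fin_cases j <;> fin_cases j₀ <;> simp_all
      rfl
    · have key : ∀ (j k : Fin (n + 3)) (hj : j ≠ i) (hk : k ≠ i), j < k → t j hj = t k hk := by
        intro j k hj hk hjk
        have h := congrArg SSet.yonedaEquiv (hf.δ_pred_comp j k hj hk hjk)
        rw [CosimplicialObject.δ, CosimplicialObject.δ, ← SSet.yonedaEquiv_naturality,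
          ← SSet.yonedaEquiv_naturality] at h
        exact h
      rcases lt_trichotomy j j₀ with h | rfl | h
      · exact key _ _ _ _ h
      · rfl
      · exact (key _ _ _ _ h).symm
  refine ⟨SSet.yonedaEquiv.symm (t j₀ hj₀), fun j hj => SSet.yonedaEquiv.injective ?_⟩
  rw [CosimplicialObject.δ, ← SSet.yonedaEquiv_naturality, Equiv.apply_symm_apply]
  exact (ht j hj).symm

/-- The constant map at the first vertex. -/
abbrev v₀ (m : SimplexCategoryᵒᵖ) : m ⟶ op ⦋0⦌ := (SimplexCategory.const ⦋0⦌ m.unop 0).op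

variable {X Y : SSet.{0}} {T : Type}

lemma app_eq (b : X ⟶ cst T) (m : SimplexCategoryᵒᵖ) (x : X.obj m) :
    b.app m x = b.app (op ⦋0⦌) (X.map (v₀ m) x) :=
  (NatTrans.naturality_apply b (v₀ m) x).symm

lemma cst_hom_ext {b b' : X ⟶ cst T}
    (h : ∀ x : X _⦋0⦌, b.app (op ⦋0⦌) x = b'.app (op ⦋0⦌) x) : b = b' := by
  refine NatTrans.ext (funext fun m => ConcreteCategory.hom_ext _ _ fun x => ?_)
  rw [app_eq b, app_eq b', h]

/-- Maps into a constant simplicial set are constant on edges. -/
lemma edge_eq (b : X ⟶ cst T) {x₀ x₁ : X _⦋0⦌} (e : SSet.Edge x₀ x₁) :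
    b.app (op ⦋0⦌) x₀ = b.app (op ⦋0⦌) x₁ := by
  have h₀ := NatTrans.naturality_apply b (SimplexCategory.δ (1 : Fin 2)).op e.edge
  have h₁ := NatTrans.naturality_apply b (SimplexCategory.δ (0 : Fin 2)).op e.edge
  rw [show X.map (SimplexCategory.δ (1 : Fin 2)).op e.edge = x₀ from e.src_eq] at h₀
  rw [show X.map (SimplexCategory.δ (0 : Fin 2)).op e.edge = x₁ from e.tgt_eq] at h₁
  exact h₀.trans h₁.symm

lemma eq_of_htpc {f g : X ⟶ cst T} (H : Htpc f g) : f = g := by
  obtain ⟨h, h₀, h₁⟩ := H.exists_map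
  refine cst_hom_ext fun x => ?_
  rw [← h₀, ← h₁]
  let s : (X ⊗ (Δ[1] : SSet.{0})) _⦋1⦌ :=
    (X.map (SimplexCategory.σ (0 : Fin 1)).op x, SSet.stdSimplex.objEquiv.symm (𝟙 _))
  have e : ∀ i : Fin 2, h.app (op ⦋0⦌) ((X ⊗ (Δ[1] : SSet.{0})).δ i s) = h.app (op ⦋1⦌) s :=
    fun i => NatTrans.naturality_apply h _ s
  have hx : ∀ i : Fin 2, ((X ⊗ (Δ[1] : SSet.{0})).δ i s).1 = x := fun i => by
    show X.map (SimplexCategory.δ i).op (X.map (SimplexCategory.σ (0 : Fin 1)).op x) = x
    rw [← Functor.map_comp_apply, ← op_comp,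
      Subsingleton.elim (SimplexCategory.δ i ≫ SimplexCategory.σ (0 : Fin 1)) (𝟙 _), op_id,
      Functor.map_id_apply]
  have hs₀ : (X ⊗ (Δ[1] : SSet.{0})).δ 1 s = SSet.ι₀.app (op ⦋0⦌) x := by
    refine Prod.ext (hx 1) ?_
    ext k
    fin_cases k
    rfl
  have hs₁ : (X ⊗ (Δ[1] : SSet.{0})).δ 0 s = SSet.ι₁.app (op ⦋0⦌) x := by
    refine Prod.ext (hx 0) ?_
    ext k
    fin_cases k
    rfl
  show h.app (op ⦋0⦌) (SSet.ι₀.app (op ⦋0⦌) x) = h.app (op ⦋0⦌) (SSet.ι₁.app (op ⦋0⦌) x)
  rw [← hs₀, ← hs₁, e, e]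

lemma eq_of_htpcEqv {f g : X ⟶ cst T} (H : HtpcEqv f g) : f = g := by
  induction H with
  | rel _ _ h => exact eq_of_htpc h
  | refl _ => rfl
  | symm _ _ _ ih => exact ih.symm
  | trans _ _ _ _ _ ih₁ ih₂ => exact ih₁.trans ih₂

/-- The map to the set of connected components. -/
def toComponents (X : SSet.{0}) : X ⟶ cst (SSet.π₀ X) where
  app m := ↾fun x => SSet.π₀.mk (X.map (v₀ m) x)
  naturality m m' φ := by
    ext x
    show SSet.π₀.mk (X.map (v₀ m') (X.map φ x)) = SSet.π₀.mk (X.map (v₀ m) x)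
    rw [← Functor.map_comp_apply]
    let k : Fin (m.unop.len + 1) := φ.unop.toOrderHom 0
    have hk : (0 : Fin (m.unop.len + 1)) ≤ k := Fin.zero_le _
    let e : ⦋1⦌ ⟶ m.unop := SimplexCategory.mkOfLe 0 k hk
    refine (SSet.π₀.sound (SSet.Edge.mk (X.map e.op x) ?_ ?_)).symm
    · show X.map (SimplexCategory.δ 1).op (X.map e.op x) = _
      rw [← Functor.map_comp_apply, ← op_comp]
      refine congrArg (fun t => X.map t x) (Quiver.Hom.unop_inj ?_)
      ext i
      fin_cases i
      rfl
    · show X.map (SimplexCategory.δ 0).op (X.map e.op x) = _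
      rw [← Functor.map_comp_apply, ← op_comp]
      refine congrArg (fun t => X.map t x) (Quiver.Hom.unop_inj ?_)
      ext i
      fin_cases i
      rfl

lemma toComponents_app_zero (x : X _⦋0⦌) : (toComponents X).app (op ⦋0⦌) x = SSet.π₀.mk x := by
  show SSet.π₀.mk (X.map (v₀ (op ⦋0⦌)) x) = _
  rw [show v₀ (op ⦋0⦌) = 𝟙 _ from congrArg Quiver.Hom.op (Subsingleton.elim _ (𝟙 _)),
    Functor.map_id_apply]

/-- **Weak equivalences are bijective on connected components.** -/
theorem bijective_mapπ₀ {f : X ⟶ Y} (hf : IsWE f) : Function.Bijective (SSet.mapπ₀ f) := by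
  constructor
  · obtain ⟨b, hb⟩ := (hf (cst (SSet.π₀ X)) (kan_cst _)).1 (toComponents X)
    have e := eq_of_htpcEqv hb
    intro c c' h
    obtain ⟨x, rfl⟩ := c.mk_surjective
    obtain ⟨x', rfl⟩ := c'.mk_surjective
    rw [SSet.mapπ₀_mk, SSet.mapπ₀_mk] at h
    let B : SSet.π₀ Y → SSet.π₀ X :=
      SSet.π₀.lift (fun y => b.app (op ⦋0⦌) y) (fun _ _ ed => edge_eq b ed)
    have hB : ∀ x : X _⦋0⦌, B (SSet.π₀.mk (f.app (op ⦋0⦌) x)) = SSet.π₀.mk x := fun x => by
      refine Eq.trans ?_ (toComponents_app_zero x)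
      rw [← e]
      rfl
    exact (hB x).symm.trans ((congrArg B h).trans (hB x'))
  · let χ : SSet.π₀ Y → Prop := fun c => c ∈ Set.range (SSet.mapπ₀ f)
    let mapTo : (SSet.π₀ Y → Prop) → (Y ⟶ cst Prop) := fun q =>
      toComponents Y ≫ (Functor.const SimplexCategoryᵒᵖ).map (↾q)
    have happ : ∀ q y, (mapTo q).app (op ⦋0⦌) y = q (SSet.π₀.mk y) := fun q y =>
      congrArg q (toComponents_app_zero y)
    have h := (hf (cst Prop) (kan_cst _)).2 (mapTo χ) (mapTo fun _ => True) (.of_eq ?_)
    · intro c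
      obtain ⟨y, rfl⟩ := c.mk_surjective
      have := congrArg (fun t : Y ⟶ cst Prop => t.app (op ⦋0⦌) y) (eq_of_htpcEqv h)
      dsimp only at this
      rw [happ, happ] at this
      exact of_eq_true this
    · refine cst_hom_ext fun x => ?_
      show (mapTo χ).app _ (f.app _ x) = (mapTo fun _ => True).app _ (f.app _ x)
      rw [happ, happ]
      exact eq_true ⟨SSet.π₀.mk x, rfl⟩

/-- A map of constant simplicial sets which is a weak equivalence is bijective. -/
theorem not_isWE_of_not_bijective {T U : Type} (q : T → U) (h : ¬ Function.Bijective q) :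
    ¬ IsWE ((Functor.const SimplexCategoryᵒᵖ).map (↾q)) := by
  intro hq
  obtain ⟨hi, hs⟩ := bijective_mapπ₀ hq
  let val : ∀ {S : Type}, SSet.π₀ (cst S) → S := fun {S} =>
    SSet.π₀.lift (fun y => y) (fun _ _ e => edge_eq (𝟙 (cst S)) e)
  refine h ⟨fun t t' e => ?_, fun u => ?_⟩
  · have := @hi (SSet.π₀.mk (X := cst T) t) (SSet.π₀.mk (X := cst T) t')
      (congrArg (SSet.π₀.mk (X := cst U)) e)
    exact congrArg val this
  · obtain ⟨c, hc⟩ := hs (SSet.π₀.mk (X := cst U) u)
    obtain ⟨t, rfl⟩ := c.mk_surjective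
    exact ⟨t, congrArg val hc⟩

/-- The empty simplicial set is not weakly equivalent to a point. -/
theorem not_isWE_empty_to_point :
    ¬ IsWE ((Functor.const SimplexCategoryᵒᵖ).map (↾(PEmpty.elim : PEmpty.{1} → PUnit.{1}))) :=
  not_isWE_of_not_bijective _ fun h => (h.2 PUnit.unit).choose.elim

/-- Two points are not weakly equivalent to one. -/
theorem not_isWE_two_points :
    ¬ IsWE ((Functor.const SimplexCategoryᵒᵖ).map (↾(fun _ => PUnit.unit : Bool → PUnit.{1}))) :=
  not_isWE_of_not_bijective _ fun h => Bool.false_ne_true (h.1 rfl)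

/-- A map without source vertices to a nonempty simplicial set is not a weak equivalence. -/
theorem not_isWE_of_isEmpty (f : X ⟶ Y) (hX : IsEmpty (X _⦋0⦌)) (y : Y _⦋0⦌) : ¬ IsWE f :=
  fun h => by
    obtain ⟨c, -⟩ := (bijective_mapπ₀ h).2 (SSet.π₀.mk y)
    obtain ⟨x, -⟩ := c.mk_surjective
    exact hX.false x

/-! ### The nerve of a poset seen as an ω-category -/

variable {P Q R : Type} [PartialOrder P] [PartialOrder Q] [PartialOrder R]

/-- The vertex at one end of a cell. -/
def endVtx (s : Bool) (a : ADC.Table (ADC.chains P)) : P :=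
  (ADC.exists_face_zero a s).choose

lemma endVtx_spec (s : Bool) (a : ADC.Table (ADC.chains P)) :
    a.face 0 s = ADC.vert (endVtx s a) :=
  (ADC.exists_face_zero a s).choose_spec

lemma strictMono_pt (v : P) : StrictMono (fun _ : Fin (0 + 1) => v) :=
  Subsingleton.strictMono (fun _ : Fin 1 => v)

lemma vert_injective : Function.Injective (ADC.vert (P := P)) := fun u v h => by
  classical
  have h' : ADC.el (fun _ : Fin 1 => u) = ADC.el (fun _ : Fin 1 => v) :=
    congrArg (fun t : ADC.Table (ADC.chains P) => t.x 0 true) h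
  rw [ADC.el_of_strictMono (strictMono_pt u),
    ADC.el_of_strictMono (strictMono_pt v)] at h'
  have := Finsupp.single_left_injective one_ne_zero h'
  exact congrFun (congrArg Subtype.val this) 0

lemma endVtx_le (a : ADC.Table (ADC.chains P)) : endVtx false a ≤ endVtx true a := by
  have hx : ∀ s, a.x 0 s = Finsupp.single
      (⟨fun _ => endVtx s a, strictMono_pt _⟩ : ADC.Chain P 0) 1 := fun s => by
    have := congrArg (fun t : ADC.Table (ADC.chains P) => t.x 0 s) (endVtx_spec s a)
    simp only [ADC.Table.face_x, lt_irrefl, if_false, if_true, ADC.vert] at this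
    rw [this, ADC.el_of_strictMono (strictMono_pt (endVtx s a))]
  exact ADC.Table.vertex_le a (hx false) (hx true)

lemma endVtx_vert (s : Bool) (v : P) : endVtx s (ADC.vert v) = v :=
  vert_injective ((endVtx_spec s _).symm.trans (ADC.face_vert v 0 s))

/-- A function on objects which is monotone along cells gives a functor to the poset. -/
def toPosCat {X : OCat} (g : X.Cell → Q) (hg : ∀ a, g (X.src 0 a) ≤ g (X.tgt 0 a)) :
    X ⟶ posCat Q where
  map a := ⟨(g (X.src 0 a), g (X.tgt 0 a)), hg a⟩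
  map_src i a := by
    by_cases hi : i = 0
    · subst hi
      refine Eq.trans ?_ (posCat.src_zero _).symm
      refine Subtype.ext (Prod.ext ?_ ?_)
      · exact congrArg g (by rw [X.src_src, min_self])
      · exact congrArg g (X.tgt_src_ge 0 0 a le_rfl)
    · refine Eq.trans ?_ (posCat.src_pos hi _).symm
      refine Subtype.ext (Prod.ext ?_ ?_)
      · exact congrArg g (by rw [X.src_src, Nat.min_eq_left (Nat.zero_le i)])
      · exact congrArg g (X.tgt_src_lt 0 i a (Nat.pos_of_ne_zero hi))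
  map_tgt i a := by
    by_cases hi : i = 0
    · subst hi
      refine Eq.trans ?_ (posCat.tgt_zero _).symm
      refine Subtype.ext (Prod.ext ?_ ?_)
      · exact congrArg g (X.src_tgt_ge 0 0 a le_rfl)
      · exact congrArg g (by rw [X.tgt_tgt, min_self])
    · refine Eq.trans ?_ (posCat.tgt_pos hi _).symm
      refine Subtype.ext (Prod.ext ?_ ?_)
      · exact congrArg g (X.src_tgt_lt 0 i a (Nat.pos_of_ne_zero hi))
      · exact congrArg g (by rw [X.tgt_tgt, Nat.min_eq_left (Nat.zero_le i)])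
  map_comp i a b h h' := by
    have hs := X.src_comp_le i 0 a b h (Nat.zero_le i)
    have ht := X.tgt_comp_le i 0 a b h (Nat.zero_le i)
    by_cases hi : i = 0
    · subst hi
      exact Subtype.ext (Prod.ext (congrArg g hs) (congrArg g ht))
    · refine Subtype.ext ?_
      simp only [posCat, hi, dif_neg, not_false_eq_true]
      refine Prod.ext (congrArg g (hs.trans ?_)) (congrArg g ht)
      have := congrArg (X.src 0) h
      rw [X.src_src, Nat.min_eq_left (Nat.zero_le i),
        X.src_tgt_lt 0 i b (Nat.pos_of_ne_zero hi)] at this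
      exact this.symm

/-- The functor recording the end vertices of a cell. -/
def endsFunctor (P : Type) [PartialOrder P] : ADC.nu (ADC.chains P) ⟶ posCat P :=
  toPosCat (fun a => endVtx true a) fun a => by
    have h₁ : endVtx true ((ADC.nu (ADC.chains P)).src 0 a) = endVtx false a := by
      show endVtx true (ADC.Table.face a 0 false) = _
      rw [endVtx_spec false a, endVtx_vert]
    have h₂ : endVtx true ((ADC.nu (ADC.chains P)).tgt 0 a) = endVtx true a := by
      show endVtx true (ADC.Table.face a 0 true) = _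
      rw [endVtx_spec true a, endVtx_vert]
    rw [h₁, h₂]
    exact endVtx_le a

lemma endsFunctor_vert (v : P) : (endsFunctor P).map (ADC.vert v) = posObj v := by
  refine Subtype.ext (Prod.ext ?_ ?_)
  · show endVtx true (ADC.Table.face (ADC.vert v) 0 false) = v
    rw [ADC.face_vert, endVtx_vert]
  · show endVtx true (ADC.Table.face (ADC.vert v) 0 true) = v
    rw [ADC.face_vert, endVtx_vert]

/-- Functors to a poset agreeing on points are equal. -/
lemma hom_ext_vert {F G : ADC.nu (ADC.chains P) ⟶ posCat Q}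
    (h : ∀ v, F.map (ADC.vert v) = G.map (ADC.vert v)) : F = G :=
  posCat.hom_ext fun a ha => by
    obtain ⟨v, hv⟩ := ADC.exists_face_zero a false
    rw [show a = ADC.vert v from ha.symm.trans hv]
    exact h v

lemma vtx_eq_posObj {m : SimplexCategoryᵒᵖ} (x : (streetNerve.obj (posCat Q)).obj m)
    (i : Fin (m.unop.len + 1)) :
    (vtx x i : {p : Q × Q // p.1 ≤ p.2}) = posObj (vtx x i).1.1 :=
  (src_vtx x i).symm.trans (posCat.src_zero _)

lemma monotone_vtx {m : SimplexCategoryᵒᵖ} (x : (streetNerve.obj (posCat Q)).obj m) :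
    Monotone fun i : Fin (m.unop.len + 1) => (vtx x i).1.1 := fun i j hij => by
  obtain ⟨a, h₁, h₂⟩ := exists_edge x hij
  rw [posCat.src_zero] at h₁
  rw [posCat.tgt_zero] at h₂
  have e₁ := congrArg (fun c : (posCat Q).Cell => c.1.1) h₁
  have e₂ := congrArg (fun c : (posCat Q).Cell => c.1.1) h₂
  exact le_of_eq_of_le e₁.symm (le_of_le_of_eq a.2 e₂)

/-- The simplex of vertices. -/
def toNerve (Q : Type) [PartialOrder Q] : streetNerve.obj (posCat Q) ⟶ (nerve Q : SSet.{0}) where
  app m := ↾fun x => (monotone_vtx x).functor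
  naturality m m' φ := by
    refine ConcreteCategory.hom_ext _ _ fun x => nerve.ext_of_isThin (funext fun i => ?_)
    exact congrArg (fun c : (posCat Q).Cell => c.1.1) (vtx_map φ x i)

lemma toNerve_natural (f : Q →o R) :
    streetNerve.map (posCat.map f) ≫ toNerve R = toNerve Q ≫ Glue.nmap f :=
  Glue.hom_ext_nerve fun _ _ _ => rfl

/-- The simplex with given vertices. -/
def ofChain {m : SimplexCategoryᵒᵖ} (g : Fin (m.unop.len + 1) →o Q) :
    orientals.obj m.unop ⟶ posCat Q :=
  endsFunctor (Fin (m.unop.len + 1)) ≫ posCat.map g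

lemma vtx_ofChain {m : SimplexCategoryᵒᵖ} (g : Fin (m.unop.len + 1) →o Q)
    (i : Fin (m.unop.len + 1)) : vtx (simplexMk (ofChain g)) i = posObj (g i) :=
  (congrArg (posCat.map g).map (endsFunctor_vert i)).trans rfl

/-- The Street nerve of a poset is its nerve. -/
theorem isIso_toNerve (Q : Type) [PartialOrder Q] : IsIso (toNerve Q) := by
  have : ∀ m, IsIso ((toNerve Q).app m) := fun m => by
    rw [isIso_iff_bijective]
    refine ⟨fun x y h => simplex_ext ?_, fun F => ?_⟩
    · refine hom_ext_vert (P := Fin (m.unop.len + 1)) fun i => ?_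
      refine (vtx_eq_posObj x i).trans (Eq.trans ?_ (vtx_eq_posObj y i).symm)
      exact congrArg posObj (congrArg (fun z : ComposableArrows Q m.unop.len => z.obj i) h)
    · refine ⟨simplexMk (ofChain ⟨fun i => (F : ComposableArrows Q _).obj i,
        fun _ _ h => leOfHom ((F : ComposableArrows Q _).map (homOfLE h))⟩), ?_⟩
      refine nerve.ext_of_isThin (funext fun i => ?_)
      exact congrArg (fun c : (posCat Q).Cell => c.1.1) (vtx_ofChain _ i)
  exact NatIso.isIso_of_isIso_app _

/-- Monotone maps homotopy inverse by comparabilities give weak equivalences. -/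
lemma isWE_nmap {f : Q →o R} (g : R →o Q) (h₁ : ∀ x, x ≤ g (f x)) (h₂ : ∀ y, f (g y) = y) :
    IsWE (Glue.nmap f) := by
  refine IsWE.of_htpc_inverse (Glue.nmap g) ?_ (.of_eq ?_)
  · rw [Glue.nmap_comp, ← Glue.nmap_id]
    exact (HtpcEqv.of_htpc (Glue.htpc_nmap (f := OrderHom.id) (g := g.comp f) h₁)).symm
  · rw [Glue.nmap_comp, ← Glue.nmap_id]
    exact congrArg Glue.nmap (OrderHom.ext _ _ (funext h₂))

/-- The arrow category. -/
def arrowCat (n : ℕ∞) (hn : 1 ≤ n) : NCat n := ⟨posCat (Fin 2), posCat.dimLE hn⟩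

/-- The point. -/
def pointCat (n : ℕ∞) (hn : 1 ≤ n) : NCat n := ⟨posCat (Fin 1), posCat.dimLE hn⟩

/-- The functor from the arrow category to the point. -/
def arrowToPoint (n : ℕ∞) (hn : 1 ≤ n) : arrowCat n hn ⟶ pointCat n hn :=
  ObjectProperty.homMk (posCat.map ⟨fun _ => 0, fun _ _ _ => le_rfl⟩)

/-- **The arrow category is weakly equivalent to the point.** -/
theorem thomasonW_arrowToPoint (n : ℕ∞) (hn : 1 ≤ n) :
    thomasonW (NCat.nerveFunctor n) (arrowToPoint n hn) := by
  show IsWE (streetNerve.map (posCat.map (⟨fun _ => 0, fun _ _ _ => le_rfl⟩ : Fin 2 →o Fin 1)))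
  have := isIso_toNerve (Fin 2)
  have := isIso_toNerve (Fin 1)
  refine IsWE.of_comp_right (IsWE.of_isIso (toNerve (Fin 1))) ?_
  rw [toNerve_natural]
  exact (IsWE.of_isIso _).comp (isWE_nmap ⟨fun _ => 1, fun _ _ _ => le_rfl⟩
    (fun x => show x ≤ 1 by omega) fun y => Subsingleton.elim _ _)

/-- It is not an isomorphism. -/
theorem not_isIso_arrowToPoint (n : ℕ∞) (hn : 1 ≤ n) : ¬ IsIso (arrowToPoint n hn) := fun h => by
  have e : ∀ a : (posCat (Fin 2)).Cell,
      (inv (arrowToPoint n hn)).hom.map ((arrowToPoint n hn).hom.map a) = a := fun a =>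
    congrArg (fun t : arrowCat n hn ⟶ arrowCat n hn => t.hom.map a)
      (IsIso.hom_inv_id (arrowToPoint n hn))
  have h₀ := e (posObj 0)
  have h₁ := e (posObj 1)
  have he : (arrowToPoint n hn).hom.map (posObj 0) = (arrowToPoint n hn).hom.map (posObj 1) :=
    Subtype.ext rfl
  rw [he, h₁] at h₀
  exact absurd (congrArg (fun c : (posCat (Fin 2)).Cell => c.1.1) h₀) (by decide)

end

end Vale.Agent.P213.Sanity
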